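import Vale.Agent.P275NU.Props
import Vale.Agent.P275MB.Lim
import Vale.Agent.P275TR.Triv
import Vale.Agent.P275GC.Pl

/-!
P275 (helper25), block RE: representatives on discs of any radius.
-/

set_option linter.all false

open scoped Topology Matrix.Norms.Operator
open Set Filter Metric Matrix
open Vale.Agent.P281Z.Hm Vale.Agent.P275GC Vale.Agent.P275GC.At Vale.Agent.P275MO
open Vale.Agent.P275NA (Fm Cy Mn)
open Vale.Agent.P275MB

noncomputable section

namespace Vale.Agent.P275RE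

variable {C : Type} [TopologicalSpace C] {n : ℕ} {A : At C} {l : Cy A ℂ} {i j k : Fin A.N} {w : ℂ}
  {z : Dat C A.N n} {r0 r r1 : ℝ} {h0 : 1 < r0} {h0' : r0 ≤ A.R} {h1 : 1 < r} {h2 : r ≤ A.R}
  {s g : Cy A (Mn n)}

/-! ### the trace free part -/

theorem tf_sc (hn : 0 < n) (X : Mn n) (c : ℂ) : tf (X + c • (1 : Mn n)) = tf X := by
  have : (n : ℂ) ≠ 0 := Nat.cast_ne_zero.2 hn.ne'
  rw [tf, tf, trace_add, trace_smul, trace_one, Fintype.card_fin, smul_eq_mul, mul_add, mul_comm c,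
    inv_mul_cancel_left₀ this, add_smul]
  abel

theorem tr_tf (hn : 0 < n) (X : Mn n) : trace (tf X) = 0 := by
  have : (n : ℂ) ≠ 0 := Nat.cast_ne_zero.2 hn.ne'
  rw [tf, trace_sub, trace_smul, trace_one, Fintype.card_fin, smul_eq_mul, mul_comm,
    mul_inv_cancel_left₀ this, sub_self]

theorem tf_of {X : Mn n} (h : trace X = 0) : tf X = X := by
  rw [tf, h, mul_zero, zero_smul, sub_zero]

theorem tf_smul (c : ℂ) (X : Mn n) : tf (c • X) = c • tf X := by
  simp only [tf, trace_smul, smul_eq_mul, smul_sub, smul_smul, mul_left_comm]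

theorem cont_tf : Continuous (tf : Mn n → Mn n) :=
  continuous_id.sub ((continuous_const.mul continuous_id.matrix_trace).smul continuous_const)

theorem an_tf {f : ℂ → Mn n} (h : AnalyticAt ℂ f w) : AnalyticAt ℂ (fun y => tf (f y)) w :=
  h.sub ((analyticAt_const.mul (an_trace h)).smul analyticAt_const)

/-! ### trivialisations -/

/-- the part of the disc of radius `r` of the chart `i` in the disc of radius `r0` of `j` -/
def W (A : At C) (r0 r : ℝ) (i j : Fin A.N) : Set ℂ :=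
  {w | w ∈ A.O i j ∧ A.tr i j w ∈ ball (0 : ℂ) r0 ∧ w ∈ ball (0 : ℂ) r}

theorem W_nhds (h : w ∈ W A r0 r i j) : ∀ᶠ y in 𝓝 w, y ∈ W A r0 r i j :=
  by
  filter_upwards [O_nhds h.1, (an_tr h.1).continuousAt.eventually (isOpen_ball.mem_nhds h.2.1),
    isOpen_ball.mem_nhds h.2.2] with y a b c using ⟨a, b, c⟩

theorem W_pick (h0 : 1 < r0) (h2 : r ≤ A.R) (h : w ∈ ball (0 : ℂ) r) (i : Fin A.N) :
    w ∈ W A r0 r i (A.pick i w) :=
  have a := pick_spec (ball_subset_ball h2 h) i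
  ⟨a.1, unit_r h0 a.2, h⟩

theorem W_tr (h : w ∈ W A r0 r i j) (h' : w ∈ (A.res r h1 h2).O i k) :
    A.tr i k w ∈ W A r0 r k j :=
  have a := res_O.1 h'
  ⟨tr_O a.1 h.1, by rw [tr_tr a.1]; exact h.2.1, a.2.2⟩

theorem W_O (h : w ∈ W A r0 r i j) (h' : w ∈ W A r0 r i k) :
    A.tr i j w ∈ (A.res r0 h0 h0').O j k :=
  res_O.2 ⟨tr_O h.1 h'.1, h.2.1, by rw [tr_tr h.1]; exact h'.2.1⟩

theorem W_self (h2 : r ≤ A.R) (h : w ∈ ball (0 : ℂ) r0) (h' : w ∈ ball (0 : ℂ) r) :
    w ∈ W A r0 r i i :=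
  have a := ball_subset_ball h2 h'
  ⟨O_self a, by rwa [tr_self a], h'⟩

theorem W_src {x : C} (hx : x ∈ (A.e i).source) (h : A.e i x ∈ W A r0 r i j) :
    x ∈ ((A.res r0 h0 h0').e j).source :=
  src_res.2 ⟨by simpa only [mem_preimage, (A.e i).left_inv hx] using h.1.2, tr_e hx ▸ h.2.1⟩

/-- frames on the large discs, read in the small discs -/
structure Tv (A : At C) (l : Cy A ℂ) (g : Cy A (Mn n)) (r0 r : ℝ) (s : Cy A (Mn n)) : Prop where
  an : ∀ i j, ∀ w ∈ W A r0 r i j, AnalyticAt ℂ (s i j) w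
  det : ∀ i j, ∀ w ∈ W A r0 r i j, (s i j w).det = l j i (A.tr i j w)
  tr : ∀ i j k, ∀ w ∈ W A r0 r i j, w ∈ W A r0 r i k → s i j w = g j k (A.tr i j w) * s i k w

theorem an_dg {f : ℂ → ℂ} (h : AnalyticAt ℂ f w) (a : Fin n) :
    AnalyticAt ℂ (fun y => diagonal (Function.update (fun _ => (1 : ℂ)) a (f y))) w :=
  an_of fun b c => by
    by_cases e : b = c
    · subst e
      by_cases e' : b = a
      · subst e'; simpa only [diagonal_apply_eq, Function.update_self] using h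
      · simpa only [diagonal_apply_eq, Function.update_of_ne e'] using analyticAt_const
    · simpa only [diagonal_apply_ne _ e] using analyticAt_const

theorem det_dg (a : Fin n) (c : ℂ) : (diagonal (Function.update (fun _ => (1 : ℂ)) a c)).det = c := by
  rw [det_diagonal, Finset.prod_update_of_mem (Finset.mem_univ a), Finset.prod_const_one, mul_one]

theorem ex_tv (hn : 0 < n) (hl : A.Cc l) (hg : (A.res r0 h0 h0').Cc g)
    (hd : ∀ i j, ∀ w ∈ (A.res r0 h0 h0').O i j, (g i j w).det = l i j w) (hr : r < A.R) :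
    ∃ s, Tv A l g r0 r s := by
  have e : ∀ i j, W A r0 r i j = W A r0 A.R i j ∩ ball 0 r := fun i j =>
    Set.ext fun w => ⟨fun a => ⟨⟨a.1, a.2.1, a.1.1⟩, a.2.2⟩, fun a => ⟨a.1.1, a.1.2.1, a.2⟩⟩
  choose s a b using fun i => P275TR.triv_ok (Fin n) (Fin A.N) (W A r0 A.R i)
    (fun j k w => g j k (A.tr i j w)) r A.R hr
    (fun j => isOpen_iff_mem_nhds.2 fun w hw => W_nhds hw) (fun w hw => ⟨_, W_pick h0 le_rfl hw i⟩)
    (fun j k w hw => ⟨(hg.an (W_O hw.1 hw.2)).comp (an_tr hw.1.1), hg.det.ne (W_O hw.1 hw.2)⟩)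
    fun j k m w hw => by
      rw [hg.mul j k m _ (W_O hw.1.1 hw.1.2) (W_O hw.1.1 hw.2), res_tr, tr_tr hw.1.1.1]
  have b' : ∀ i j k, ∀ w ∈ W A r0 r i j, w ∈ W A r0 r i k → s i j w = g j k (A.tr i j w) * s i k w :=
    fun i j k w p q => b i j k w ⟨⟨(e i j ▸ p).1, (e i k ▸ q).1⟩, p.2.2⟩
  refine ⟨fun i j w => s i j w * diagonal (Function.update (fun _ => (1 : ℂ)) ⟨0, hn⟩
    (l j i (A.tr i j w) / (s i j w).det)), fun i j w p => ?_, fun i j w p => ?_,
    fun i j k w p q => ?_⟩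
  · have c := a i j w (e i j ▸ p)
    exact an_mul c.1 (an_dg (((hl.an (tr_mem p.1)).comp (an_tr p.1)).div (an_det c.1) c.2) _)
  · rw [Matrix.det_mul, det_dg, mul_div_cancel₀ _ (a i j w (e i j ▸ p)).2]
  · have c := hl.mul j k i _ (tr_O p.1 q.1) (tr_mem p.1)
    rw [← Matrix.mul_assoc, ← b' i j k w p q, c, tr_tr p.1, b' i j k w p q, Matrix.det_mul,
      hd j k _ (W_O p q), mul_div_mul_left _ _ (hl.ne (tr_O p.1 q.1))]

/-! ### the new object -/

/-- the connection in the new frame of the chart `i`, computed in the chart `j` -/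
def cn (A : At C) (s : Cy A (Mn n)) (z : Dat C A.N n) (i j : Fin A.N) (w : ℂ) : Mn n :=
  (s i j w)⁻¹ * (z.lam • deriv (s i j) w + A.d i j w • (z.a j (A.tr i j w) * s i j w))

/-- the object in the new frames -/
def nw (A : At C) (s : Cy A (Mn n)) (z : Dat C A.N n) : Dat C A.N n :=
  ⟨z.lam, z.x, fun i k w => (s i (A.pick i w) w)⁻¹ * s k (A.pick i w) (A.tr i k w),
    fun i w => tf (cn A s z i (A.pick i w) w),
    fun i => (s i (A.pick i (A.e i z.x)) (A.e i z.x))⁻¹ * z.σ (A.pick i (A.e i z.x)), z.R⟩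

theorem canc {a b c : Mn n} (h : a.det ≠ 0) : (a * b)⁻¹ * (a * c) = b⁻¹ * c := by
  rw [Matrix.mul_inv_rev, Matrix.mul_assoc, nonsing_inv_mul_cancel_left _ _ h.isUnit]

theorem Tv.ne (T : Tv A l g r0 r s) (hl : A.Cc l) (h : w ∈ W A r0 r i j) : (s i j w).det ≠ 0 :=
  T.det i j w h ▸ hl.ne (tr_mem h.1)

theorem g_eq (G : Good (A.res r0 h0 h0') l z) (T : Tv A l z.g r0 r s)
    (h : w ∈ (A.res r h1 h2).O i k) (h' : w ∈ W A r0 r i j) :
    (nw A s z).g i k w = (s i j w)⁻¹ * s k j (A.tr i k w) := by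
  have p := W_pick h0 h2 h.1 i
  rw [T.tr i j _ w h' p, T.tr k j _ _ (W_tr h' h) (W_tr p h), tr_tr (res_O.1 h).1,
    canc (G.cc.det.ne (W_O h' p))]
  rfl

theorem g_ev (G : Good (A.res r0 h0 h0') l z) (T : Tv A l z.g r0 r s)
    (h : w ∈ (A.res r h1 h2).O i k) (h' : w ∈ W A r0 r i j) :
    (nw A s z).g i k =ᶠ[𝓝 w] fun y => (s i j y)⁻¹ * s k j (A.tr i k y) := by
  filter_upwards [O_nhds h, W_nhds h'] with y a b using g_eq G T a b

theorem cn_eq (hl : A.Cc l) (G : Good (A.res r0 h0 h0') l z) (T : Tv A l z.g r0 r s)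
    (h : w ∈ W A r0 r i j) (h' : w ∈ W A r0 r i k) (hx : (A.e i).symm w ≠ z.x) :
    ∃ c : ℂ, cn A s z i j w = cn A s z i k w + c • 1 := by
  have o := W_O (h0 := h0) (h0' := h0') h h'
  obtain ⟨c, e⟩ := G.law j k _ o (by
    show (A.e j).symm _ ≠ _
    rwa [symm_tr h.1])
  have d : deriv (s i j) w = (A.d i j w • deriv (z.g j k) (A.tr i j w)) * s i k w +
      z.g j k (A.tr i j w) * deriv (s i k) w :=
    ((((G.cc.an o).differentiableAt.hasDerivAt.scomp w (has_tr h.1)).mul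
      (T.an i k w h').differentiableAt.hasDerivAt).congr_of_eventuallyEq (by
        filter_upwards [W_nhds h, W_nhds h'] with y a b using T.tr i j k y a b)).deriv
  refine ⟨A.d i j w * c, ?_⟩
  rw [res_tr, res_d, tr_tr h.1] at e
  have q : z.lam • deriv (s i j) w + A.d i j w • (z.a j (A.tr i j w) * s i j w) =
      z.g j k (A.tr i j w) * (z.lam • deriv (s i k) w + A.d i k w • (z.a k (A.tr i k w) * s i k w) +
        (A.d i j w * c) • s i k w) := by
    have e' := congrArg (fun X => A.d i j w • (X * s i k w)) e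
    rw [d, T.tr i j k w h h', A.cc_d.mul i j k w h.1 h'.1]
    simp only [mul_add, add_mul, smul_add, mul_smul_comm, smul_mul_assoc, mul_assoc, mul_smul,
      smul_comm z.lam (A.d i j w)] at e' ⊢
    linear_combination (norm := module) e'
  rw [cn, q, T.tr i j k w h h', canc (G.cc.det.ne o), cn, mul_add _ _ (_ • s i k w), mul_smul_comm,
    nonsing_inv_mul _ (T.ne hl h').isUnit]

theorem a_eq (hn : 0 < n) (hl : A.Cc l) (G : Good (A.res r0 h0 h0') l z) (T : Tv A l z.g r0 r s)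
    (h2 : r ≤ A.R) (h : w ∈ W A r0 r i j) (hx : (A.e i).symm w ≠ z.x) :
    (nw A s z).a i w = tf (cn A s z i j w) := by
  obtain ⟨c, e⟩ := cn_eq hl G T h (W_pick h0 h2 h.2.2 i) hx
  rw [e, tf_sc hn]
  rfl

theorem σ_eq (G : Good (A.res r0 h0 h0') l z) (T : Tv A l z.g r0 r s) (h2 : r ≤ A.R)
    (hx : z.x ∈ (A.e i).source) (h : A.e i z.x ∈ W A r0 r i j) :
    (nw A s z).σ i = (s i j (A.e i z.x))⁻¹ * z.σ j := by
  have p := W_pick h0 h2 h.2.2 i
  have o := G.cc.det.ne (W_O h p)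
  rw [T.tr i j _ _ h p, G.frc j _ (W_src hx h) (W_src hx p)]
  rw [tr_e hx] at o ⊢
  exact (canc o).symm

variable [T2Space C]

theorem an_cn (hl : A.Cc l) (G : Good (A.res r0 h0 h0') l z) (T : Tv A l z.g r0 r s)
    (h : w ∈ W A r0 r i j) (hx : (A.e i).symm w ≠ z.x) : AnalyticAt ℂ (cn A s z i j) w :=
  have a := T.an i j w h
  an_mul (an_inv a (T.ne hl h)) ((a.deriv.const_smul (c := z.lam)).add ((an_d h.1).smul (an_mul
    ((Good.an G ⟨h.2.1, (off_tr h.1 hx).2⟩).comp (an_tr h.1)) a)))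

section good

variable (hn : 0 < n) (hl : A.Cc l) (G : Good (A.res r0 h0 h0') l z) (T : Tv A l z.g r0 r s)
include hl G T

theorem nw_an (h : w ∈ (A.res r h1 h2).O i k) : AnalyticAt ℂ ((nw A s z).g i k) w :=
  have p := W_pick h0 h2 h.1 i
  (an_mul (an_inv (T.an _ _ w p) (T.ne hl p)) ((T.an _ _ _ (W_tr p h)).comp
    (an_tr (res_O.1 h).1))).congr (g_ev G T h p).symm

theorem nw_one (h1 : 1 < r) (h2 : r ≤ A.R) (h : w ∈ ball (0 : ℂ) r) : (nw A s z).g i i w = 1 := by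
  have p := W_pick h0 h2 h i
  rw [g_eq G T (O_self (A := A.res r h1 h2) h) p, tr_self (ball_subset_ball h2 h),
    nonsing_inv_mul _ (T.ne hl p).isUnit]

theorem nw_mul (a : w ∈ (A.res r h1 h2).O i j) (b : w ∈ (A.res r h1 h2).O i k) :
    (nw A s z).g i k w = (nw A s z).g i j w * (nw A s z).g j k (A.tr i j w) := by
  have p := W_pick h0 h2 a.1 i
  have c : A.tr i j w ∈ (A.res r h1 h2).O j k := tr_O a b
  rw [g_eq G T a p, g_eq G T b p, g_eq G T c (W_tr p a), tr_tr (res_O.1 a).1,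
    Matrix.mul_assoc, mul_nonsing_inv_cancel_left _ _ (T.ne hl (W_tr p a)).isUnit]

theorem nw_det (h : w ∈ (A.res r h1 h2).O i k) : ((nw A s z).g i k w).det = l i k w := by
  have p := W_pick h0 h2 h.1 i
  have o := (res_O.1 h).1
  have c := hl.mul _ i k _ (tr_mem p.1) (tr_O p.1 o)
  rw [g_eq G T h p, Matrix.det_mul, det_nonsing_inv, Ring.inverse_eq_inv', T.det _ _ _ p,
    T.det _ _ _ (W_tr p h), tr_tr o, c, tr_inv p.1, inv_mul_cancel_left₀ (hl.ne (tr_mem p.1))]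

theorem nw_fr (h2 : r ≤ A.R) (hx : z.x ∈ (A.e i).source) (h : A.e i z.x ∈ ball (0 : ℂ) r) :
    ((nw A s z).σ i).det ≠ 0 := by
  have p := W_pick h0 h2 h i
  rw [σ_eq G T h2 hx p, Matrix.det_mul]
  exact mul_ne_zero (isUnit_nonsing_inv_det _ (T.ne hl p).isUnit).ne_zero (G.fr _ (W_src hx p))

theorem nw_frc (a : z.x ∈ ((A.res r h1 h2).e i).source) (b : z.x ∈ ((A.res r h1 h2).e k).source) :
    (nw A s z).σ i = (nw A s z).g i k (A.e i z.x) * (nw A s z).σ k := by
  have o : A.e i z.x ∈ (A.res r h1 h2).O i k := mem_O a b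
  rw [src_res] at a b
  have p := W_pick h0 h2 a.2 i
  have q := W_tr p o
  rw [tr_e a.1] at q
  rw [σ_eq G T h2 a.1 p, σ_eq G T h2 b.1 q, g_eq G T o p, tr_e a.1, Matrix.mul_assoc,
    mul_nonsing_inv_cancel_left _ _ (T.ne hl q).isUnit]

include hn

theorem nw_hol (h : w ∈ off (A.res r h1 h2) z.x i) : AnalyticAt ℂ ((nw A s z).a i) w := by
  have p := W_pick h0 h2 h.1 i
  refine (an_tf (an_cn hl G T p h.2)).congr ?_
  filter_upwards [W_nhds p, (off_open (A := A.res r h1 h2) _ i).mem_nhds h] with y a b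
    using (a_eq hn hl G T h2 a b.2).symm

theorem nw_law (h : w ∈ (A.res r h1 h2).O i k) (hx : (A.e i).symm w ≠ z.x) : ∃ c : ℂ,
    (nw A s z).a i w * (nw A s z).g i k w + z.lam • deriv ((nw A s z).g i k) w =
      A.d i k w • ((nw A s z).g i k w * (nw A s z).a k (A.tr i k w)) + c • (nw A s z).g i k w := by
  have p := W_pick h0 h2 h.1 i
  have o := (res_O.1 h).1
  have q := W_tr p h
  set j := A.pick i w
  have u := (T.ne hl p).isUnit
  have v := (T.ne hl q).isUnit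
  have an : AnalyticAt ℂ (fun y => s k j (A.tr i k y)) w := (T.an _ _ _ q).comp (an_tr o)
  have d : deriv (fun y => s k j (A.tr i k y)) w = A.d i k w • deriv (s k j) (A.tr i k w) :=
    ((T.an _ _ _ q).differentiableAt.hasDerivAt.scomp w (has_tr o)).deriv
  have e : deriv ((nw A s z).g i k) w = _ := (g_ev G T h p).deriv_eq.trans
    (dmul (an_inv (T.an _ _ _ p) (T.ne hl p)) an)
  rw [e, d, deriv_minv (T.an _ _ _ p) (T.ne hl p), g_eq G T h p, a_eq hn hl G T h2 p hx,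
    a_eq hn hl G T h2 q (off_tr o hx).2, tf, tf]
  refine ⟨A.d i k w * ((n : ℂ)⁻¹ * (cn A s z k j (A.tr i k w)).trace) -
    (n : ℂ)⁻¹ * (cn A s z i j w).trace, ?_⟩
  generalize (n : ℂ)⁻¹ * (cn A s z k j (A.tr i k w)).trace = c
  generalize (n : ℂ)⁻¹ * (cn A s z i j w).trace = c'
  rw [cn, cn, tr_tr o, A.cc_d.mul i k j w o p.1]
  simp only [mul_add, add_mul, mul_sub, sub_mul, smul_add, smul_sub, mul_smul_comm,
    smul_mul_assoc, mul_assoc, mul_nonsing_inv_cancel_left _ _ u,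
    mul_nonsing_inv_cancel_left _ _ v, one_mul, mul_one, neg_mul, smul_neg]
  module

theorem nw_pole (hR : z.R.trace = 0) (h2 : r ≤ A.R) (hx : z.x ∈ (A.e i).source)
    (h : A.e i z.x ∈ ball (0 : ℂ) r) :
    Tendsto (fun w => (w - A.e i z.x) • (nw A s z).a i w) (𝓝[≠] (A.e i z.x))
      (𝓝 ((nw A s z).σ i * z.R * ((nw A s z).σ i)⁻¹)) := by
  have p := W_pick h0 h2 h i
  set j := A.pick i (A.e i z.x)
  have m : z.x ∈ ((A.res r0 h0 h0').e j).source := W_src hx p
  have u := (T.ne hl p).isUnit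
  have v := (G.fr j m).isUnit
  have a := T.an _ _ _ p
  have le : 𝓝[≠] (A.e i z.x) ≤ 𝓝 (A.e i z.x) := nhdsWithin_le_nhds
  have t0 : Tendsto (fun w => (w - A.e j z.x) • z.a j w) (𝓝[≠] (A.e j z.x))
    (𝓝 (z.σ j * z.R * (z.σ j)⁻¹)) := G.pole j m
  have t1 := t0.comp (tr_e (j := j) hx ▸ tends_tr p.1)
  have t2 := ((an_d p.1).continuousAt.div (an_dslope p.1 p.1).continuousAt
    (dslope_ne p.1 p.1)).tendsto.mono_left le
  have t3 := ((continuousAt_id.sub (continuousAt_const (y := A.e i z.x))).smul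
    (a.deriv.continuousAt.const_smul z.lam)).tendsto.mono_left le
  have t := (cont_tf.tendsto _).comp (((an_inv a (T.ne hl p)).continuousAt.tendsto.mono_left
    le).mul (t3.add (t2.smul (t1.mul (a.continuousAt.tendsto.mono_left le)))))
  refine (t.congr' ?_).mono_right (le_of_eq (congrArg 𝓝 ?_))
  · filter_upwards [le (W_nhds p), off_ev hx] with y b c
    have e := sub_smul_dslope (A.tr i j) (A.e i z.x) y
    rw [tr_e hx] at e
    rw [a_eq hn hl G T h2 b c.2, ← tf_smul, cn, ← mul_smul_comm, smul_add]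
    show tf (_ * ((y - A.e i z.x) • z.lam • deriv (s i j) y + (A.d i j y / _) •
      (((A.tr i j y - A.e j z.x) • z.a j (A.tr i j y)) * s i j y))) = _
    rw [← e, smul_mul_assoc, smul_smul (_ / _), smul_smul (y - _) (A.d i j y), smul_eq_mul,
      mul_comm (y - _) (dslope _ _ _), ← mul_assoc, div_mul_cancel₀ _ (dslope_ne p.1 b.1),
      mul_comm (A.d i j y)]
  · rw [σ_eq G T h2 hx p, Pi.div_apply, dslope_same, ← At.d, div_self (d_ne p.1), one_smul,
      Matrix.mul_inv_rev, nonsing_inv_nonsing_inv _ u]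
    simp only [id, sub_self, zero_smul, zero_add, Pi.smul_apply', Pi.sub_apply, mul_assoc]
    refine tf_of ?_
    rw [trace_mul_comm, mul_assoc, mul_assoc, mul_assoc, mul_nonsing_inv _ u, mul_one,
      trace_mul_comm, mul_assoc, nonsing_inv_mul _ v, mul_one, hR]

theorem good_nw (hR : z.R.trace = 0) : Good (A.res r h1 h2) l (nw A s z) := by
  refine ⟨⟨fun i k w h => ?_, fun i w h => ?_, fun i j k w a b => ?_⟩, fun i k w h => ?_,
    fun i w h => ?_, fun _ _ _ => tr_tf hn _, fun i k w h hx => ?_, fun i hx => ?_,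
    fun i k a b => ?_, fun i hx => ?_⟩
  · exact (nw_an (A := A) (i := i) (k := k) hl G T h).differentiableAt.differentiableWithinAt
  · exact nw_one (A := A) (i := i) hl G T h1 h2 h
  · exact nw_mul (A := A) (i := i) (j := j) (k := k) hl G T a b
  · exact nw_det (A := A) (i := i) (k := k) hl G T h
  · exact (nw_hol (A := A) (i := i) hn hl G T h).differentiableAt.differentiableWithinAt
  · exact nw_law (A := A) (i := i) (k := k) hn hl G T h hx
  · exact nw_fr (A := A) (i := i) hl G T h2 hx.1 hx.2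
  · exact nw_frc (A := A) (i := i) (k := k) hl G T a b
  · have e : (A.res r h1 h2).e i (nw A s z).x = A.e i z.x := rfl
    rw [e]
    exact nw_pole (A := A) (i := i) hn hl G T hR h2 hx.1 hx.2

theorem nw_con (h2 : r ≤ A.R) (a : w ∈ ball (0 : ℂ) r0) (a' : w ∈ ball (0 : ℂ) r)
    (hx : (A.e i).symm w ≠ z.x) :
    z.lam • deriv (s i i) w + z.a i w * s i i w = s i i w * (nw A s z).a i w := by
  have p : w ∈ W A r0 r i i := W_self h2 a a'
  have u := (T.ne hl p).isUnit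
  have b := p.1.1
  have e : (fun y => (s i i y).det) =ᶠ[𝓝 w] fun _ => 1 := (W_nhds p).mono fun y c =>
    (T.det i i y c).trans (hl.one i _ (tr_ball c.1))
  have d := (deriv_det (T.an i i w p) (T.ne hl p)).symm.trans (e.deriv_eq.trans (deriv_const w 1))
  rw [a_eq hn hl G T h2 p hx, cn, A.cc_d.one i w b, tr_self b, one_smul, tf_of,
    mul_nonsing_inv_cancel_left _ _ u]
  rw [mul_add, trace_add, mul_smul_comm, trace_smul,
    (mul_eq_zero.1 d).resolve_left u.ne_zero, smul_zero, zero_add, trace_mul_comm, mul_assoc,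
    mul_nonsing_inv _ u, mul_one, G.tr i w ⟨a, hx⟩]

omit hn in
theorem nw_map (a : w ∈ W A r0 r i i) (b : A.tr i k w ∈ W A r0 r k k)
    (o : w ∈ (A.res r h1 h2).O i k) :
    s i i w * (nw A s z).g i k w = z.g i k w * s k k (A.tr i k w) := by
  rw [g_eq G T o a, mul_nonsing_inv_cancel_left _ _ (T.ne hl a).isUnit,
    T.tr k i k _ (W_tr a o) b, tr_inv (res_O.1 o).1]

omit hn in
theorem nw_frm (h2 : r ≤ A.R) (hx : z.x ∈ (A.e i).source) (a : A.e i z.x ∈ W A r0 r i i) :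
    s i i (A.e i z.x) * (nw A s z).σ i = z.σ i * 1 := by
  rw [σ_eq G T h2 hx a, mul_nonsing_inv_cancel_left _ _ (T.ne hl a).isUnit, mul_one]

theorem iso_nw (h1 : 1 < r) (h2 : r ≤ A.R) (a1 : 1 < r1) (a2 : r1 ≤ r0) (a3 : r1 ≤ r) :
    IsoBy (A.res r1 a1 (a3.trans h2)) (nw A s z) z (fun i => s i i) 1 := by
  have m : ∀ {i : Fin A.N} {w : ℂ}, w ∈ ball (0 : ℂ) r1 → w ∈ W A r0 r i i := fun h =>
    W_self h2 (ball_subset_ball a2 h) (ball_subset_ball a3 h)
  refine ⟨⟨rfl, rfl, hl_of fun i w h => T.an i i w (m h), fun i k w h => ?_, fun i w h => ?_⟩,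
    fun i w h => T.ne hl (m h), fun i hx => ?_⟩
  · have o := res_O.1 h
    exact nw_map (A := A) (i := i) (k := k) (h1 := h1) (h2 := h2) hl G T (m o.2.1) (m o.2.2)
      (res_O.2 ⟨o.1, ball_subset_ball a3 o.2.1, ball_subset_ball a3 o.2.2⟩)
  · exact nw_con (A := A) (i := i) hn hl G T h2 (ball_subset_ball a2 h.1) (ball_subset_ball a3 h.1) h.2
  · have e : (A.res r1 a1 (a3.trans h2)).e i (nw A s z).x = A.e i z.x := rfl
    rw [e]
    exact nw_frm (A := A) (i := i) hl G T h2 hx.1 (m hx.2)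

end good

omit [T2Space C] in
/-- **Representatives on discs of any radius.** -/
theorem rep {d : ℤ} (hS : Std A l n d) : P275NU.REP A n l := by
  intro τ y r h1 h2
  haveI := hS.t2
  have hn : 0 < n := two_pos.trans_le hS.two
  obtain ⟨y, rfl⟩ := pt_surj y
  obtain ⟨⟨r0, h0, h0', G, S⟩, hq⟩ := y.2
  obtain ⟨s, T⟩ := ex_tv hn hS.cc G.cc G.det h2
  have G' := good_nw (h1 := h1) (h2 := h2.le) hn hS.cc G T (τ.tr _ hq)
  have a := lt_min h0 h1
  have f := iso_nw hn hS.cc G T h1 h2.le a (min_le_left _ _) (min_le_right _ _)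
  have g1 := Good.mono G' a (min_le_right r0 r)
  have g2 := Good.mono G a (min_le_left r0 r)
  refine ⟨⟨nw A s y.1, ⟨_, a, _, g1, Stab.iso g1 g2 f.toHom f.det
    (Stab.mono G S a (min_le_left r0 r))⟩, hq⟩, pt_eq_iff.2 ⟨_, a, _, _, 1, one_mem _, f⟩, G'⟩

end Vale.Agent.P275RE
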